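import Vale.Agent.P220.R2.H57.Theta
import Vale.Agent.P220.R2.H252.Trap

/-!
The leafwise isotopy of `L` to a graph along the field of the extended angle.
-/

open Set Filter Topology
open scoped ContDiff Manifold

set_option linter.unusedSectionVars false

namespace Vale.Agent.P220.R2.H57

variable {E : Type} [NormedAddCommGroup E] [InnerProductSpace ℝ E] [FiniteDimensional ℝ E]

namespace Setup

variable {D : Setup E}

namespace Fld

variable {Λ : D.Leaf} (A : Fld Λ)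

/-- the field in the leaf coordinates -/
noncomputable def W (x : E × (ℝ × ℝ)) : E × (ℝ × ℝ) :=
  (0, (-Real.sin (A.g (D.φ x.2.1 x.1, x.2.2)), Real.cos (A.g (D.φ x.2.1 x.1, x.2.2))))

theorem W_smooth : ContDiff ℝ ∞ A.W := by
  have h1 : ContDiff ℝ ∞ fun x : E × (ℝ × ℝ) => A.g (D.φ x.2.1 x.1, x.2.2) :=
    A.hg.comp ((D.hφ.smooth.comp ((contDiff_fst.comp contDiff_snd).prodMk contDiff_fst)).prodMk
      (contDiff_snd.comp contDiff_snd))
  exact contDiff_const.prodMk ((Real.contDiff_sin.comp h1).neg.prodMk (Real.contDiff_cos.comp h1))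

theorem W_bound (x : E × (ℝ × ℝ)) : ‖A.W x‖ ≤ 1 := by
  unfold W
  rw [Prod.norm_def, Prod.norm_def]
  refine max_le ?_ (max_le ?_ ?_)
  · simp
  · simpa using Real.abs_sin_le_one _
  · simpa using Real.abs_cos_le_one _

theorem exists_flow : ∃ Ψ : ℝ → E × (ℝ × ℝ) → E × (ℝ × ℝ), IsFlow A.W Ψ :=
  exists_flow_bounded A.W_smooth A.W_bound

variable {A} {Ψ : ℝ → E × (ℝ × ℝ) → E × (ℝ × ℝ)} (hΨ : IsFlow A.W Ψ)

include hΨ

theorem fst_const (s : ℝ) (x : E × (ℝ × ℝ)) : (Ψ s x).1 = x.1 := by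
  have h1 : ∀ s, HasDerivAt (fun s => (Ψ s x).1) 0 s := fun s => by
    have h0 := (hasFDerivAt_fst (𝕜 := ℝ) (p := Ψ s x)).comp_hasDerivAt s (hΨ.deriv s x)
    have h2 : (A.W (Ψ s x)).1 = 0 := rfl
    rw [← h2]
    exact h0
  have h2 := is_const_of_deriv_eq_zero (fun s => (h1 s).differentiableAt)
    (fun s => (h1 s).deriv) s 0
  simp only [hΨ.zero] at h2
  exact h2

theorem equivariant (s a : ℝ) (x : E) (t y : ℝ) : Ψ s (D.φ a x, (t, y)) =
    (D.φ a x, ((Ψ s (x, (t + a, y))).2.1 - a, (Ψ s (x, (t + a, y))).2.2)) := by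
  have h1 := hΨ.uniq (fun s => (D.φ a x, ((Ψ s (x, (t + a, y))).2.1 - a,
    (Ψ s (x, (t + a, y))).2.2))) (fun s => by
      have h2 := (hasFDerivAt_snd (𝕜 := ℝ) (p := Ψ s (x, (t + a, y)))).comp_hasDerivAt s
        (hΨ.deriv s (x, (t + a, y)))
      have h3 := (hasFDerivAt_fst (𝕜 := ℝ) (p := (Ψ s (x, (t + a, y))).2)).comp_hasDerivAt s h2
      have h4 := (hasFDerivAt_snd (𝕜 := ℝ) (p := (Ψ s (x, (t + a, y))).2)).comp_hasDerivAt s h2
      have h5 := (hasDerivAt_const s (D.φ a x)).prodMk ((h3.sub_const a).prodMk h4)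
      have h6 : D.φ ((Ψ s (x, (t + a, y))).2.1 - a) (D.φ a x) =
          D.φ ((Ψ s (x, (t + a, y))).2.1) (Ψ s (x, (t + a, y))).1 := by
        rw [← D.hφ.add, sub_add_cancel, fst_const hΨ]
      have h7 : A.W (D.φ a x, ((Ψ s (x, (t + a, y))).2.1 - a, (Ψ s (x, (t + a, y))).2.2)) =
          (0, ((A.W (Ψ s (x, (t + a, y)))).2.1, (A.W (Ψ s (x, (t + a, y)))).2.2)) := by
        simp only [W, h6]
      rw [h7]
      exact h5) s
  simp only [hΨ.zero, add_sub_cancel_right] at h1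
  exact h1.symm

theorem vertical {x : E} {t : ℝ} (hw : ∀ y, A.g (D.φ t x, y) = 0) (s y : ℝ) :
    Ψ s (x, (t, y)) = (x, (t, y + s)) := by
  have h1 := hΨ.uniq (fun s => (x, (t, y + s))) (fun s => by
      have h2 : HasDerivAt (fun s : ℝ => y + s) 1 s := (hasDerivAt_id s).const_add y
      have h3 := (hasDerivAt_const s x).prodMk ((hasDerivAt_const s t).prodMk h2)
      have h4 : A.W (x, (t, y + s)) = (0, (0, 1)) := by
        simp only [W, hw]
        simp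
      rw [h4]
      exact h3) s
  simp only [add_zero] at h1
  exact h1.symm

theorem no_cross {x : E} {t : ℝ} (hw : ∀ y, A.g (D.φ t x, y) = 0) {p : ℝ × ℝ} {s₀ : ℝ}
    (h : (Ψ s₀ (x, p)).2.1 = t) (s : ℝ) : (Ψ s (x, p)).2.1 = t := by
  have h1 : Ψ s (x, p) = Ψ (s - s₀) (Ψ s₀ (x, p)) := by rw [← hΨ.add, sub_add_cancel]
  have h2 : Ψ s₀ (x, p) = (x, (t, (Ψ s₀ (x, p)).2.2)) := by
    refine Prod.ext (fst_const hΨ _ _) (Prod.ext h rfl)
  rw [h1, h2, vertical hΨ hw]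

theorem cont_t (x : E × (ℝ × ℝ)) : Continuous fun s => (Ψ s x).2.1 := by
  have h1 : Continuous fun s : ℝ => Ψ s x := hΨ.continuous.comp (continuous_id.prodMk continuous_const)
  exact continuous_fst.comp (continuous_snd.comp h1)

theorem confine {x : E} (hx : x ∈ D.Q) (y s : ℝ) : |(Ψ s (x, (0, y))).2.1| ≤ A.T₀ := by
  have hiv := intermediate_value_uIcc (a := 0) (b := s) (f := fun s => (Ψ s (x, (0, y))).2.1)
    (cont_t hΨ _).continuousOn
  simp only [hΨ.zero] at hiv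
  rw [abs_le]
  constructor
  · by_contra hcon
    have hlt := not_le.1 hcon
    obtain ⟨t, ht, htw⟩ := A.wall _ (D.φ_mem hx (-A.T₀))
    simp only [← D.hφ.add] at htw
    have hmem : t + -A.T₀ ∈ uIcc (0 : ℝ) (Ψ s (x, (0, y))).2.1 := by
      rw [uIcc_of_ge (by linarith [A.hT₀])]
      exact ⟨by linarith [ht.1], by linarith [ht.2]⟩
    obtain ⟨s₀, -, hs₀⟩ := hiv hmem
    have h1 := no_cross hΨ htw hs₀ s
    linarith [ht.1]
  · by_contra hcon
    have hlt := not_le.1 hcon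
    obtain ⟨t, ht, htw⟩ := A.wall _ hx
    have hmem : t ∈ uIcc (0 : ℝ) (Ψ s (x, (0, y))).2.1 := by
      rw [uIcc_of_le (by linarith [A.hT₀])]
      exact ⟨ht.1, by linarith [ht.2]⟩
    obtain ⟨s₀, -, hs₀⟩ := hiv hmem
    have h1 := no_cross hΨ htw hs₀ s
    linarith [ht.2]

theorem hasDerivAt_y (x : E × (ℝ × ℝ)) (s : ℝ) : HasDerivAt (fun s => (Ψ s x).2.2)
    (Real.cos (A.g (D.φ (Ψ s x).2.1 (Ψ s x).1, (Ψ s x).2.2))) s := by
  have h2 := (hasFDerivAt_snd (𝕜 := ℝ) (p := Ψ s x)).comp_hasDerivAt s (hΨ.deriv s x)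
  exact (hasFDerivAt_snd (𝕜 := ℝ) (p := (Ψ s x).2)).comp_hasDerivAt s h2

omit hΨ in
theorem R_pos (A : Fld Λ) : 0 < A.R := by
  obtain ⟨z, hz⟩ := D.conn.nonempty
  exact (abs_nonneg _).trans_lt (A.hR z hz)

theorem top_stay {x : E × (ℝ × ℝ)} {s₀ s : ℝ} (h : A.R < (Ψ s₀ x).2.2) (hs : s₀ ≤ s) :
    A.R < (Ψ s x).2.2 := by
  refine stay (A := fun s => (Ψ s x).2.2) (hasDerivAt_y hΨ x) (fun t ht => ?_) h hs
  have h1 : A.g (D.φ (Ψ t x).2.1 (Ψ t x).1, (Ψ t x).2.2) = 0 := by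
    apply A.top
    rw [show (D.φ (Ψ t x).2.1 (Ψ t x).1, (Ψ t x).2.2).2 = A.R from ht, abs_of_pos A.R_pos]
  rw [h1, Real.cos_zero]
  exact one_pos

theorem escape {x : E} (hx : x ∈ D.Q) (y : ℝ) : ∃ s, 0 ≤ s ∧ A.R < (Ψ s (x, (0, y))).2.2 := by
  by_contra hcon
  push Not at hcon
  set m : ℝ := min y (-A.R) - 1 with hm
  have hmy : m < y := by
    have := min_le_left y (-A.R)
    linarith
  have hmR : m < -A.R := by
    have := min_le_right y (-A.R)
    linarith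
  have hlow : ∀ s, 0 ≤ s → m < (Ψ s (x, (0, y))).2.2 := by
    intro s hs
    refine stay (A := fun s => (Ψ s (x, (0, y))).2.2) (hasDerivAt_y hΨ _) (fun t ht => ?_)
      (s₀ := 0) (by simpa [hΨ.zero] using hmy) hs
    have h1 : A.g (D.φ (Ψ t (x, (0, y))).2.1 (Ψ t (x, (0, y))).1, (Ψ t (x, (0, y))).2.2) = 0 := by
      apply A.top
      rw [show (D.φ (Ψ t (x, (0, y))).2.1 (Ψ t (x, (0, y))).1, (Ψ t (x, (0, y))).2.2).2 = m from ht,
        abs_of_neg (by linarith [A.R_pos])]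
      linarith
    rw [h1, Real.cos_zero]
    exact one_pos
  have hg : ContDiff ℝ ∞ fun p : ℝ × ℝ => A.g (D.φ p.1 x, p.2) :=
    A.hg.comp ((D.hφ.smooth.comp (contDiff_fst.prodMk contDiff_const)).prodMk contDiff_snd)
  refine H252.no_trap hg (γ := fun s => (Ψ s (x, (0, y))).2) (fun s => ?_)
    (K := Icc (-A.T₀) A.T₀ ×ˢ Icc m A.R) (isCompact_Icc.prod isCompact_Icc) (fun s hs => ?_)
  · have h2 := (hasFDerivAt_snd (𝕜 := ℝ) (p := Ψ s (x, (0, y)))).comp_hasDerivAt s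
      (hΨ.deriv s (x, (0, y)))
    have h3 : (A.W (Ψ s (x, (0, y)))).2 =
        (-Real.sin (A.g (D.φ (Ψ s (x, (0, y))).2.1 x, (Ψ s (x, (0, y))).2.2)),
          Real.cos (A.g (D.φ (Ψ s (x, (0, y))).2.1 x, (Ψ s (x, (0, y))).2.2))) := by
      simp only [W, fst_const hΨ]
    rw [← h3]
    exact h2
  · exact ⟨abs_le.1 (confine hΨ hx y s), (hlow s hs).le, hcon s hs⟩

theorem escape_uniform : ∃ S > 0, ∀ z ∈ D.L, A.R < (Ψ S (z.1, (0, D.h z))).2.2 := by
  set U : ℝ → Set (E × E) := fun s => {z | 0 ≤ s ∧ A.R < (Ψ s (z.1, (0, D.h z))).2.2} with hU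
  have hUo : ∀ s, IsOpen (U s) := by
    intro s
    have h1 : Continuous fun z : E × E => (Ψ s (z.1, (0, D.h z))).2.2 :=
      continuous_snd.comp (continuous_snd.comp ((hΨ.smooth_map s).continuous.comp
        (continuous_fst.prodMk (continuous_const.prodMk D.h_smooth.continuous))))
    exact isOpen_const.inter (isOpen_lt continuous_const h1)
  obtain ⟨t, ht⟩ := D.cL.elim_finite_subcover U hUo (fun z hz => by
    obtain ⟨s, hs, hs'⟩ := escape hΨ (D.sub z hz) (D.h z)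
    exact mem_iUnion.2 ⟨s, hs, hs'⟩)
  refine ⟨∑ s ∈ t, |s| + 1, by positivity, fun z hz => ?_⟩
  obtain ⟨s, hst, hs0, hs⟩ := mem_iUnion₂.1 (ht hz)
  refine top_stay hΨ hs ?_
  have h5 : |s| ≤ ∑ s ∈ t, |s| := Finset.single_le_sum (f := fun s => |s|)
    (fun σ _ => abs_nonneg σ) hst
  have := le_abs_self s
  linarith

end Fld

end Setup

end Vale.Agent.P220.R2.H57
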