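import Vale.Agent.P220.R2.H57.Field

/-!
The leafwise isotopy ends in a graph.
-/

open Set Filter Topology
open scoped ContDiff Manifold

set_option linter.unusedSectionVars false

namespace Vale.Agent.P220.R2.H57

variable {E : Type} [NormedAddCommGroup E] [InnerProductSpace ℝ E] [FiniteDimensional ℝ E]

namespace Setup

variable {D : Setup E}

/-- the derivative of `z ↦ φ (τ z) z.1` -/
theorem hasFDerivAt_push {τ : E × E → ℝ} (hτ : ContDiff ℝ ∞ τ) (z : E × E) :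
    HasFDerivAt (fun z => D.φ (τ z) z.1)
      ((fderiv ℝ (D.φ (τ z)) z.1).comp (ContinuousLinearMap.fst ℝ E E) +
        (fderiv ℝ τ z).smulRight (D.X (D.φ (τ z) z.1))) z := by
  have hG : ContDiff ℝ ∞ (fun q : ℝ × E => D.φ q.1 q.2) := D.hφ.smooth
  have h1 := (hG.differentiable (by simp) (τ z, z.1)).hasFDerivAt
  set C := fderiv ℝ (fun q : ℝ × E => D.φ q.1 q.2) (τ z, z.1) with hC
  have hτd : HasFDerivAt τ (fderiv ℝ τ z) z := (hτ.differentiable (by simp) z).hasFDerivAt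
  have h2 : HasFDerivAt (fun z : E × E => (τ z, z.1))
      ((fderiv ℝ τ z).prod (ContinuousLinearMap.fst ℝ E E)) z := hτd.prodMk hasFDerivAt_fst
  have h3 : HasFDerivAt (fun z => D.φ (τ z) z.1)
      (C.comp ((fderiv ℝ τ z).prod (ContinuousLinearMap.fst ℝ E E))) z :=
    HasFDerivAt.comp (g := fun q : ℝ × E => D.φ q.1 q.2) (f := fun z : E × E => (τ z, z.1)) z h1 h2
  have h4 : ∀ v : E, C (0, v) = fderiv ℝ (D.φ (τ z)) z.1 v := by
    intro v
    have h5 : HasFDerivAt (fun x : E => ((τ z, x) : ℝ × E)) (ContinuousLinearMap.inr ℝ ℝ E) z.1 :=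
      hasFDerivAt_prodMk_right _ _
    have h6 := h1.comp z.1 h5
    have h7 : fderiv ℝ (D.φ (τ z)) z.1 = C.comp (ContinuousLinearMap.inr ℝ ℝ E) := h6.fderiv
    rw [h7]
    simp
  have h5 : ∀ c : ℝ, C (c, 0) = c • D.X (D.φ (τ z) z.1) := by
    intro c
    have h5 : HasFDerivAt (fun t : ℝ => ((t, z.1) : ℝ × E)) (ContinuousLinearMap.inl ℝ ℝ E) (τ z) :=
      hasFDerivAt_prodMk_left _ _
    have h6 := h1.comp (τ z) h5
    have h7 := congrArg (fun B => B c) (h6.unique (D.hφ.deriv (τ z) z.1).hasFDerivAt)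
    simpa using h7
  refine h3.congr_fderiv (ContinuousLinearMap.ext fun v => ?_)
  have h6 : ((fderiv ℝ τ z).prod (ContinuousLinearMap.fst ℝ E E)) v =
      (fderiv ℝ τ z v, 0) + (0, v.1) := by simp
  rw [ContinuousLinearMap.comp_apply, h6, map_add, h4, h5]
  simp [add_comm]

namespace Fld

variable {Λ : D.Leaf} {A : Fld Λ} {Ψ : ℝ → E × (ℝ × ℝ) → E × (ℝ × ℝ)} (hΨ : IsFlow A.W Ψ)

include hΨ

theorem smooth_B (S : ℝ) : ContDiff ℝ ∞ fun x : ℝ × (E × E) =>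
    Ψ (x.1 * S) (x.2.1, (0, D.h x.2)) :=
  hΨ.smooth.comp ((contDiff_fst.mul contDiff_const).prodMk
    ((contDiff_fst.comp contDiff_snd).prodMk
      (contDiff_const.prodMk (D.h_smooth.comp contDiff_snd))))

/-- The leafwise derivative of the pushed curve is the image of the leafwise vector under the
flow. -/
theorem key {z : E × E} (hz : z ∈ D.L) (s : ℝ) {τ y : E × E → ℝ}
    (hτ : τ = fun z => (Ψ s (z.1, (0, D.h z))).2.1) (hy : y = fun z => (Ψ s (z.1, (0, D.h z))).2.2) :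
    fderiv ℝ (Ψ s) (z.1, (0, D.h z)) (0, ((Λ.u z).1, (Λ.u z).2)) =
      (0, ((Λ.u z).1 + fderiv ℝ τ z (Λ.Z z), fderiv ℝ y z (Λ.Z z))) := by
  have hB : ContDiff ℝ ∞ fun z : E × E => Ψ s (z.1, (0, D.h z)) :=
    (hΨ.smooth_map s).comp (contDiff_fst.prodMk (contDiff_const.prodMk D.h_smooth))
  have hτs : ContDiff ℝ ∞ τ := by
    rw [hτ]
    exact contDiff_fst.comp (contDiff_snd.comp hB)
  have hys : ContDiff ℝ ∞ y := by
    rw [hy]
    exact contDiff_snd.comp (contDiff_snd.comp hB)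
  have hζ := Λ.hζ.deriv 0 z
  rw [Λ.hζ.zero] at hζ
  have hT := Λ.hasDerivAt_T hz 0
  rw [Λ.hζ.zero] at hT
  have hh := Λ.hasDerivAt_h hz 0
  rw [Λ.hζ.zero] at hh
  have hτd : HasDerivAt (fun σ => τ (Λ.ζ σ z)) (fderiv ℝ τ z (Λ.Z z)) 0 := by
    have h1 : HasFDerivAt τ (fderiv ℝ τ z) (Λ.ζ 0 z) := by
      rw [Λ.hζ.zero]
      exact (hτs.differentiable (by simp) z).hasFDerivAt
    exact h1.comp_hasDerivAt 0 hζ
  have hyd : HasDerivAt (fun σ => y (Λ.ζ σ z)) (fderiv ℝ y z (Λ.Z z)) 0 := by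
    have h1 : HasFDerivAt y (fderiv ℝ y z) (Λ.ζ 0 z) := by
      rw [Λ.hζ.zero]
      exact (hys.differentiable (by simp) z).hasFDerivAt
    exact h1.comp_hasDerivAt 0 hζ
  -- the curve in the leaf of `z`
  have hcurve : ∀ σ, Ψ s (z.1, (Λ.T σ z, D.h (Λ.ζ σ z))) =
      (z.1, (Λ.T σ z + τ (Λ.ζ σ z), y (Λ.ζ σ z))) := by
    intro σ
    have h1 := equivariant hΨ s (Λ.T σ z) z.1 0 (D.h (Λ.ζ σ z))
    rw [← Λ.base hz, zero_add] at h1
    have h2 : τ (Λ.ζ σ z) = (Ψ s ((Λ.ζ σ z).1, (0, D.h (Λ.ζ σ z)))).2.1 := by rw [hτ]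
    have h3 : y (Λ.ζ σ z) = (Ψ s ((Λ.ζ σ z).1, (0, D.h (Λ.ζ σ z)))).2.2 := by rw [hy]
    rw [h2, h3, h1]
    refine Prod.ext (fst_const hΨ _ _) (Prod.ext ?_ rfl)
    simp only
    ring
  have h1 : HasDerivAt (fun σ => Ψ s (z.1, (Λ.T σ z, D.h (Λ.ζ σ z))))
      (fderiv ℝ (Ψ s) (z.1, (0, D.h z)) (0, ((Λ.u z).1, (Λ.u z).2))) 0 := by
    have h2 : HasFDerivAt (Ψ s) (fderiv ℝ (Ψ s) (z.1, (0, D.h z)))
        (z.1, (Λ.T 0 z, D.h (Λ.ζ 0 z))) := by
      rw [Λ.T_zero, Λ.hζ.zero]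
      exact hΨ.hasFDerivAt s _
    exact h2.comp_hasDerivAt 0 ((hasDerivAt_const (0 : ℝ) z.1).prodMk (hT.prodMk hh))
  have h2 : HasDerivAt (fun σ => Ψ s (z.1, (Λ.T σ z, D.h (Λ.ζ σ z))))
      (0, ((Λ.u z).1 + fderiv ℝ τ z (Λ.Z z), fderiv ℝ y z (Λ.Z z))) 0 := by
    have h3 := (hasDerivAt_const (0 : ℝ) z.1).prodMk ((hT.add hτd).prodMk hyd)
    refine h3.congr_of_eventuallyEq (Eventually.of_forall fun σ => ?_)
    exact hcurve σ
  exact h1.unique h2

/-- the pushed hypersurface is never tangent to the field -/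
theorem wron_ne {z : E × E} (hz : z ∈ D.L) (s : ℝ) {τ y : E × E → ℝ}
    (hτ : τ = fun z => (Ψ s (z.1, (0, D.h z))).2.1) (hy : y = fun z => (Ψ s (z.1, (0, D.h z))).2.2) :
    ((Λ.u z).1 + fderiv ℝ τ z (Λ.Z z)) * Real.cos (A.g (D.φ (τ z) z.1, y z)) +
      fderiv ℝ y z (Λ.Z z) * Real.sin (A.g (D.φ (τ z) z.1, y z)) ≠ 0 := by
  intro h0
  have hkey := key hΨ hz s hτ hy
  set α := (Λ.u z).1 + fderiv ℝ τ z (Λ.Z z) with hα
  set β := fderiv ℝ y z (Λ.Z z) with hβ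
  set γ := A.g (D.φ (τ z) z.1, y z) with hγ
  set x₀ : E × (ℝ × ℝ) := (z.1, (0, D.h z)) with hx₀
  have hsc := Real.sin_sq_add_cos_sq γ
  set c : ℝ := -α * Real.sin γ + β * Real.cos γ with hc
  have hα' : α = c * (-Real.sin γ) := by
    rw [hc]
    linear_combination (-α) * hsc + Real.cos γ * h0
  have hβ' : β = c * Real.cos γ := by
    rw [hc]
    linear_combination (-β) * hsc + Real.sin γ * h0
  have hW : A.W (Ψ s x₀) = (0, (-Real.sin γ, Real.cos γ)) := by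
    have h1 : (Ψ s x₀).2.1 = τ z := by rw [hτ]
    have h2 : (Ψ s x₀).2.2 = y z := by rw [hy]
    have h3 : (Ψ s x₀).1 = z.1 := fst_const hΨ _ _
    simp only [W, h1, h2, h3, hγ]
  have h1 : fderiv ℝ (Ψ s) x₀ (c • A.W x₀) = (0, (α, β)) := by
    rw [map_smul, hΨ.fderiv_vec, hW, hα', hβ']
    simp
  have h2 : fderiv ℝ (Ψ s) x₀ ((0, ((Λ.u z).1, (Λ.u z).2)) - c • A.W x₀) = 0 := by
    rw [map_sub, h1, hkey, sub_self]
  have h3 := sub_eq_zero.1 (hΨ.fderiv_injective s x₀ _ h2)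
  have h4 : A.W x₀ = (0, (-Real.sin (A.g (z.1, D.h z)), Real.cos (A.g (z.1, D.h z)))) := by
    simp only [W, hx₀, D.hφ.zero]
  rw [h4] at h3
  have h5 : (Λ.u z).1 = c * (-Real.sin (A.g (z.1, D.h z))) := congrArg (fun p => p.2.1) h3
  have h6 : (Λ.u z).2 = c * Real.cos (A.g (z.1, D.h z)) := congrArg (fun p => p.2.2) h3
  have h7 := A.angle z hz
  rw [h5, h6] at h7
  have : c * -Real.sin (A.g (z.1, D.h z)) * Real.cos (A.g (z.1, D.h z)) +
    c * Real.cos (A.g (z.1, D.h z)) * Real.sin (A.g (z.1, D.h z)) = 0 := by ring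
  linarith

end Fld

/-- A continuous function without zeros keeps its sign. -/
theorem pos_of_ne {w : ℝ → ℝ} (hw : Continuous w) (h0 : 0 < w 0) (hne : ∀ s, w s ≠ 0) (s : ℝ) :
    0 < w s := by
  by_contra hcon
  have h1 := intermediate_value_uIcc (a := 0) (b := s) hw.continuousOn
  have h2 : (0 : ℝ) ∈ uIcc (w 0) (w s) := by
    rw [uIcc_of_ge (by linarith [not_lt.1 hcon])]
    exact ⟨not_lt.1 hcon, h0.le⟩
  obtain ⟨t, -, ht⟩ := h1 h2
  exact hne t ht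

theorem fderiv_slice {G : Type} [NormedAddCommGroup G] [NormedSpace ℝ G] {f : ℝ × (E × E) → G}
    (hf : ContDiff ℝ ∞ f) (s : ℝ) (z v : E × E) :
    fderiv ℝ (fun z => f (s, z)) z v = fderiv ℝ f (s, z) (0, v) := by
  have h1 : HasFDerivAt (fun z : E × E => ((s, z) : ℝ × (E × E)))
      (ContinuousLinearMap.inr ℝ ℝ (E × E)) z := hasFDerivAt_prodMk_right _ _
  have h2 := ((hf.differentiable (by simp) (s, z)).hasFDerivAt).comp z h1
  have h3 : fderiv ℝ (fun z => f (s, z)) z = (fderiv ℝ f (s, z)).comp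
    (ContinuousLinearMap.inr ℝ ℝ (E × E)) := h2.fderiv
  rw [h3]
  simp

theorem exists_push (Λ : D.Leaf) (hsurj : ∀ q ∈ D.Q, ∃ z ∈ D.L, z.1 = q) : Nonempty (Push Λ) := by
  obtain ⟨A⟩ := exists_fld Λ
  obtain ⟨Ψ, hΨ⟩ := A.exists_flow
  obtain ⟨S, hS, hesc⟩ := Fld.escape_uniform hΨ
  set B : ℝ × (E × E) → E × (ℝ × ℝ) := fun x => Ψ (x.1 * S) (x.2.1, (0, D.h x.2)) with hB
  have hBs : ContDiff ℝ ∞ B := Fld.smooth_B hΨ S
  set τ : ℝ × (E × E) → ℝ := fun x => (B x).2.1 with hτ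
  set y : ℝ × (E × E) → ℝ := fun x => (B x).2.2 with hy
  have hτs : ContDiff ℝ ∞ τ := contDiff_fst.comp (contDiff_snd.comp hBs)
  have hys : ContDiff ℝ ∞ y := contDiff_snd.comp (contDiff_snd.comp hBs)
  have hτ0 : ∀ z, τ (0, z) = 0 := by
    intro z
    simp only [hτ, hB, zero_mul, hΨ.zero]
  have hy0 : ∀ z, y (0, z) = D.h z := by
    intro z
    simp only [hy, hB, zero_mul, hΨ.zero]
  -- the Wronskian
  set w : ℝ → E × E → ℝ := fun s z =>
    ((Λ.u z).1 + fderiv ℝ τ (s, z) (0, Λ.Z z)) * Real.cos (A.g (D.φ (τ (s, z)) z.1, y (s, z))) +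
      fderiv ℝ y (s, z) (0, Λ.Z z) * Real.sin (A.g (D.φ (τ (s, z)) z.1, y (s, z))) with hw
  have hwne : ∀ z ∈ D.L, ∀ s, w s z ≠ 0 := by
    intro z hz s
    have h1 := Fld.wron_ne hΨ hz (s * S) (τ := fun z => τ (s, z)) (y := fun z => y (s, z)) rfl rfl
    rw [fderiv_slice hτs, fderiv_slice hys] at h1
    exact h1
  have hwpos : ∀ z ∈ D.L, ∀ s, 0 < w s z := by
    intro z hz s
    refine pos_of_ne (w := fun s => w s z) ?_ ?_ (hwne z hz) s
    · have h1 : Continuous fun s : ℝ => ((s, z) : ℝ × (E × E)) :=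
        continuous_id.prodMk continuous_const
      have h2 : Continuous fun s : ℝ => fderiv ℝ τ (s, z) (0, Λ.Z z) :=
        (((hτs.fderiv_right (m := ∞) (by simp)).continuous).comp h1).clm_apply continuous_const
      have h3 : Continuous fun s : ℝ => fderiv ℝ y (s, z) (0, Λ.Z z) :=
        (((hys.fderiv_right (m := ∞) (by simp)).continuous).comp h1).clm_apply continuous_const
      have h4 : Continuous fun s : ℝ => A.g (D.φ (τ (s, z)) z.1, y (s, z)) :=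
        A.hg.continuous.comp ((D.hφ.continuous.comp ((hτs.continuous.comp h1).prodMk
          continuous_const)).prodMk (hys.continuous.comp h1))
      exact ((continuous_const.add h2).mul (Real.continuous_cos.comp h4)).add
        (h3.mul (Real.continuous_sin.comp h4))
    · have h1 : fderiv ℝ τ (0, z) (0, Λ.Z z) = 0 := by
        rw [← fderiv_slice hτs]
        have : (fun z => τ (0, z)) = fun _ => 0 := funext hτ0
        rw [this]
        simp
      have h2 : fderiv ℝ y (0, z) (0, Λ.Z z) = (Λ.u z).2 := by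
        rw [← fderiv_slice hys]
        have : (fun z => y (0, z)) = D.h := funext hy0
        rw [this]
        exact Λ.Z_h hz
      simp only [hw, h1, h2, hτ0, hy0, D.hφ.zero, add_zero]
      exact A.angle z hz
  have hpos : ∀ z ∈ D.L, 0 < (Λ.u z).1 + fderiv ℝ τ (1, z) (0, Λ.Z z) := by
    intro z hz
    have h1 := hwpos z hz 1
    have h2 : A.R < y (1, z) := by
      simp only [hy, hB, one_mul]
      exact hesc z hz
    have h3 : A.g (D.φ (τ (1, z)) z.1, y (1, z)) = 0 := by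
      apply A.top
      rw [abs_of_pos (A.R_pos.trans h2)]
      exact h2.le
    simp only [hw, h3, Real.cos_zero, Real.sin_zero, mul_one, mul_zero, add_zero] at h1
    exact h1
  have hinj : ∀ s, ∀ z ∈ D.L, ∀ z' ∈ D.L, D.φ (τ (s, z)) z.1 = D.φ (τ (s, z')) z'.1 →
      y (s, z) = y (s, z') → z = z' := by
    intro s z hz z' hz' h1 h2
    set q := D.φ (τ (s, z)) z.1 with hq
    have hback : ∀ z : E × E, D.φ (τ (s, z)) z.1 = q →
        z.1 = D.φ (-τ (s, z)) q ∧ Ψ (s * S) (q, (-τ (s, z), D.h z)) = (q, (0, y (s, z))) := by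
      intro z hzq
      have h3 : z.1 = D.φ (-τ (s, z)) q := by rw [← hzq, D.hφ.neg_left]
      refine ⟨h3, ?_⟩
      have h4 := Fld.equivariant hΨ (s * S) (-τ (s, z)) q 0 (D.h z)
      rw [← h3, zero_add] at h4
      have h5 : τ (s, z) = (Ψ (s * S) (z.1, (0, D.h z))).2.1 := rfl
      have h6 : y (s, z) = (Ψ (s * S) (z.1, (0, D.h z))).2.2 := rfl
      refine Prod.ext (Fld.fst_const hΨ _ _) (Prod.ext ?_ ?_)
      · have h7 := congrArg (fun p => p.2.1) h4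
        simp only at h7
        rw [← h5] at h7
        simp only
        linarith
      · have h7 := congrArg (fun p => p.2.2) h4
        simp only at h7
        rw [← h6] at h7
        exact h7.symm
    obtain ⟨h3, h4⟩ := hback z rfl
    obtain ⟨h3', h4'⟩ := hback z' h1.symm
    rw [← h2, ← h4] at h4'
    have h5 := congrArg (Ψ (-(s * S))) h4'
    rw [hΨ.neg_left, hΨ.neg_left] at h5
    have h6 : -τ (s, z') = -τ (s, z) := congrArg (fun p => p.2.1) h5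
    have h7 : D.h z' = D.h z := congrArg (fun p => p.2.2) h5
    refine D.h_inj hz hz' ?_ h7.symm
    rw [h3, h3', h6]
  -- the final map
  set q₁ : E × E → E := fun z => D.φ (τ (1, z)) z.1 with hq₁
  have hq₁s : ContDiff ℝ ∞ q₁ := D.hφ.smooth.comp
    ((hτs.comp (contDiff_const.prodMk contDiff_id)).prodMk contDiff_fst)
  -- the final time along a leafwise curve
  set TT : ℝ → E × E → ℝ := fun σ z => Λ.T σ z + τ (1, Λ.ζ σ z) with hTT
  have hTTd : ∀ z ∈ D.L, ∀ σ, HasDerivAt (fun σ => TT σ z)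
      ((Λ.u (Λ.ζ σ z)).1 + fderiv ℝ τ (1, Λ.ζ σ z) (0, Λ.Z (Λ.ζ σ z))) σ := by
    intro z hz σ
    refine (Λ.hasDerivAt_T hz σ).add ?_
    have h1 : HasFDerivAt (fun z => τ (1, z)) (fderiv ℝ (fun z => τ (1, z)) (Λ.ζ σ z)) (Λ.ζ σ z) :=
      ((hτs.comp (contDiff_const.prodMk contDiff_id)).differentiable (by simp) _).hasFDerivAt
    have h2 := h1.comp_hasDerivAt σ (Λ.hζ.deriv σ z)
    rw [fderiv_slice hτs] at h2
    exact h2
  have hTTmono : ∀ z ∈ D.L, StrictMono fun σ => TT σ z := by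
    intro z hz
    refine strictMono_of_deriv_pos fun σ => ?_
    rw [(hTTd z hz σ).deriv]
    exact hpos _ (Λ.ζ_mem hz σ)
  have hbase : ∀ z ∈ D.L, ∀ σ, q₁ (Λ.ζ σ z) = D.φ (TT σ z) z.1 := by
    intro z hz σ
    simp only [hq₁, hTT]
    rw [Λ.base hz, ← D.hφ.add, add_comm]
  have hTc : ∀ z, Continuous fun σ => Λ.T σ z := fun z =>
    Λ.cont_T.comp (continuous_id.prodMk continuous_const)
  have hTTc : ∀ z ∈ D.L, Continuous fun σ => TT σ z := fun z hz =>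
    continuous_iff_continuousAt.2 fun σ => (hTTd z hz σ).continuousAt
  have hsurj₁ : ∀ q ∈ D.Q, ∃ z ∈ D.L, q₁ z = q := by
    intro q hq
    obtain ⟨z, hz, hzq⟩ := hsurj q hq
    obtain ⟨C, hC⟩ := (D.cL.image (f := fun z => τ (1, z))
      (hτs.continuous.comp (continuous_const.prodMk continuous_id))).isBounded.exists_norm_le
    have hC' : ∀ z ∈ D.L, |τ (1, z)| ≤ C := fun z hz => hC _ ⟨z, hz, rfl⟩
    obtain ⟨⟨σ₁, -, h1⟩, -⟩ := Λ.T_large hz (C + 1)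
    obtain ⟨-, ⟨σ₂, -, h2⟩⟩ := Λ.T_large hz (-C - 1)
    have h3 : 0 ≤ TT σ₁ z := by
      have := (abs_le.1 (hC' _ (Λ.ζ_mem hz σ₁))).1
      simp only [hTT]
      linarith
    have h4 : TT σ₂ z ≤ 0 := by
      have := (abs_le.1 (hC' _ (Λ.ζ_mem hz σ₂))).2
      simp only [hTT]
      linarith
    obtain ⟨σ, -, hσ⟩ := intermediate_value_uIcc (a := σ₂) (b := σ₁) (hTTc z hz).continuousOn
      (by rw [uIcc_of_le (h4.trans h3)]; exact ⟨h4, h3⟩ : (0 : ℝ) ∈ _)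
    refine ⟨Λ.ζ σ z, Λ.ζ_mem hz σ, ?_⟩
    have hσ' : TT σ z = 0 := hσ
    rw [hbase z hz, hσ', D.hφ.zero, hzq]
  have hinj₁ : ∀ z ∈ D.L, ∀ z' ∈ D.L, q₁ z = q₁ z' → z = z' := by
    intro z hz z' hz' h
    set q := q₁ z with hq
    have hqQ : q ∈ D.Q := D.φ_mem (D.sub z hz) _
    obtain ⟨t, htN⟩ := D.leaves q hqQ
    have hmove : ∀ z ∈ D.L, q₁ z = q → ∃ σ, (Λ.ζ σ z).1 = D.φ t q ∧ Λ.T σ z - τ (1, z) = t := by
      intro z hz hzq
      obtain ⟨⟨σ₁, -, h1⟩, -⟩ := Λ.T_large hz (t + τ (1, z))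
      obtain ⟨-, ⟨σ₂, -, h2⟩⟩ := Λ.T_large hz (t + τ (1, z))
      obtain ⟨σ, -, hσ⟩ := intermediate_value_uIcc (a := σ₂) (b := σ₁) (hTc z).continuousOn
        (by rw [uIcc_of_le (h2.trans h1).le]; exact ⟨h2.le, h1.le⟩ : t + τ (1, z) ∈ _)
      have hσ' : Λ.T σ z = t + τ (1, z) := hσ
      refine ⟨σ, ?_, by rw [hσ']; ring⟩
      rw [Λ.base hz, hσ', D.hφ.add]
      congr 1
    obtain ⟨σ, h1, h2⟩ := hmove z hz rfl
    obtain ⟨σ', h1', h2'⟩ := hmove z' hz' h.symm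
    have hm : Λ.ζ σ z = Λ.ζ σ' z' := D.uniqN _ (Λ.ζ_mem hz σ) _ (Λ.ζ_mem hz' σ')
      (by rw [h1]; exact htN) (by rw [h1, h1'])
    have hmem := Λ.ζ_mem hz σ
    have hTT1 : TT (-σ) (Λ.ζ σ z) = -t := by
      have h3 := Λ.T_add hz (-σ) σ
      rw [neg_add_cancel, Λ.T_zero] at h3
      simp only [hTT]
      rw [Λ.hζ.neg_left]
      linarith
    have hTT2 : TT (-σ') (Λ.ζ σ z) = -t := by
      rw [hm]
      have h3 := Λ.T_add hz' (-σ') σ'
      rw [neg_add_cancel, Λ.T_zero] at h3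
      simp only [hTT]
      rw [Λ.hζ.neg_left]
      linarith
    have h4 : -σ = -σ' := (hTTmono _ hmem).injective (by
      rw [hTT1, hTT2])
    have h5 : z = Λ.ζ (-σ) (Λ.ζ σ z) := (Λ.hζ.neg_left σ z).symm
    rw [h5, h4, hm, Λ.hζ.neg_left]
  have himm₁ : ∀ z ∈ D.L, ∀ v ∈ Tn D.ρ z, fderiv ℝ q₁ z v = 0 → v = 0 := by
    intro z hz v hv h0
    have h1 := hasFDerivAt_push (D := D) (τ := fun z => τ (1, z))
      (hτs.comp (contDiff_const.prodMk contDiff_id)) z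
    have h2 : HasFDerivAt q₁ _ z := h1
    rw [h2.fderiv] at h0
    simp only [add_apply, ContinuousLinearMap.comp_apply, ContinuousLinearMap.coe_fst',
      ContinuousLinearMap.smulRight_apply, fderiv_slice hτs] at h0
    have h3 := D.hφ.fderiv_vec (τ (1, z)) z.1
    rw [← h3, ← map_smul, ← map_add] at h0
    have h4 := D.hφ.fderiv_injective _ _ _ h0
    have h5 : v.1 = (-(fderiv ℝ τ (1, z) (0, v))) • D.X z.1 := by
      rw [neg_smul]
      exact eq_neg_of_add_eq_zero_left h4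
    obtain ⟨l, hl, hl'⟩ := Λ.leafwise hz hv h5
    have h6 : fderiv ℝ τ (1, z) (0, v) = l * fderiv ℝ τ (1, z) (0, Λ.Z z) := by
      rw [hl']
      have : ((0 : ℝ), l • Λ.Z z) = l • ((0 : ℝ), Λ.Z z) := by simp
      rw [this, map_smul, smul_eq_mul]
    rw [h6] at hl
    have h7 : l * ((Λ.u z).1 + fderiv ℝ τ (1, z) (0, Λ.Z z)) = 0 := by linarith
    rcases mul_eq_zero.1 h7 with h8 | h8
    · rw [hl', h8, zero_smul]
    · exact absurd h8 (hpos z hz).ne'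
  obtain ⟨μ, hμ, hμl⟩ := D.hL.exists_leftInv (P := ℝ) D.cL (Ψ := fun x => q₁ x.2)
    (hq₁s.comp contDiff_snd) (fun s z hz z' hz' h => hinj₁ z hz z' hz' h) (fun s z hz v hv h0 => by
      refine himm₁ z hz v hv ?_
      have h1 : HasFDerivAt (fun x : ℝ × (E × E) => q₁ x.2)
          ((fderiv ℝ q₁ z).comp (ContinuousLinearMap.snd ℝ ℝ (E × E))) (s, z) := by
        have h2 : HasFDerivAt q₁ (fderiv ℝ q₁ z) ((s, z) : ℝ × (E × E)).2 :=
          (hq₁s.differentiable (by simp) z).hasFDerivAt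
        exact h2.comp (s, z) hasFDerivAt_snd
      rw [h1.fderiv] at h0
      simpa using h0)
  have hκl : ∀ z ∈ D.L, μ (0, q₁ z) = z := fun z hz => hμl 0 z hz
  refine ⟨⟨τ, y, hτs, hys, fun z _ => hτ0 z, fun z _ => hy0 z, fun s z hz h1 h2 => ?_, hpos, hinj,
    fun x => μ (0, x), hμ.comp (contDiff_const.prodMk contDiff_id), fun q hq => ?_, fun q hq => ?_,
    hκl⟩⟩
  · have h3 := hwne z hz s
    simp only [hw, h1, h2, zero_mul, add_zero, ne_eq, not_true_eq_false] at h3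
  · obtain ⟨z, hz, hzq⟩ := hsurj₁ q hq
    rw [← hzq, hκl z hz]
    exact hz
  · obtain ⟨z, hz, hzq⟩ := hsurj₁ q hq
    rw [← hzq, hκl z hz]

end Setup

end Vale.Agent.P220.R2.H57
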