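import Vale.Agent.P220.R2.H57.Tub
import Vale.Agent.P220.R2.H57.Graph
import Vale.Agent.P220.R2.H481.HamExt
import Vale.Agent.P220.R2.H481.Surj
import Vale.Agent.P220.R2.H252.Exact

/-!
The theorem on one-momentum Lagrangians.
-/

open Set Filter Topology
open scoped ContDiff Manifold

set_option linter.unusedSectionVars false

namespace Vale.Agent.P220.R2.H57

variable {E : Type} [NormedAddCommGroup E] [InnerProductSpace ℝ E] [FiniteDimensional ℝ E]

theorem fderiv_reverse {G : Type} [NormedAddCommGroup G] [NormedSpace ℝ G] {f : ℝ × (E × E) → G}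
    (hf : ContDiff ℝ ∞ f) (s : ℝ) (z v : E × E) :
    fderiv ℝ (fun x : ℝ × (E × E) => f (1 - x.1, x.2)) (s, z) (0, v) =
      fderiv ℝ f (1 - s, z) (0, v) := by
  have h1 : HasFDerivAt (fun x : ℝ × (E × E) => ((1 - x.1, x.2) : ℝ × (E × E)))
      ((-ContinuousLinearMap.fst ℝ ℝ (E × E)).prod (ContinuousLinearMap.snd ℝ ℝ (E × E)))
      (s, z) := by
    refine HasFDerivAt.prodMk ?_ hasFDerivAt_snd
    simpa using (hasFDerivAt_fst (𝕜 := ℝ) (p := ((s, z) : ℝ × (E × E)))).const_sub (1 : ℝ)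
  have h2 : HasFDerivAt f (fderiv ℝ f (1 - s, z)) (1 - s, z) :=
    (hf.differentiable (by simp) _).hasFDerivAt
  have h3 : HasFDerivAt (fun x : ℝ × (E × E) => f (1 - x.1, x.2)) ((fderiv ℝ f (1 - s, z)).comp
      ((-ContinuousLinearMap.fst ℝ ℝ (E × E)).prod (ContinuousLinearMap.snd ℝ ℝ (E × E))))
      (s, z) :=
    HasFDerivAt.comp (g := f) (f := fun x : ℝ × (E × E) => ((1 - x.1, x.2) : ℝ × (E × E)))
      (s, z) h2 h1
  rw [h3.fderiv]
  simp

/-- the auxiliary data of a one-momentum Lagrangian -/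
theorem exists_setup {n : ℕ} {Q : Set E} {L : Set (E × E)} {N : Set E} {X : E → E}
    (hQ : IsClosedManifold n Q) (hL : IsExactLagrangian n Q L) (h : IsOneMomentum Q L N X) :
    ∃ D : Setup E, D.Q = Q ∧ D.L = L := by
  obtain ⟨UQ, r, hr, dQ⟩ := exists_ret hQ.sub hQ.compact
  obtain ⟨UL, ρ, hρ, dL⟩ := exists_ret hL.closed.sub hL.closed.compact
  obtain ⟨B, hB⟩ := hQ.compact.isBounded.exists_norm_le
  obtain ⟨χ, hχ, hχc, hχ1⟩ := exists_cutoff (F := E) B
  set X' : E → E := fun x => χ x • X x with hX'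
  have hX's : ContDiff ℝ ∞ X' := hχ.smul h.smooth
  have hX'c : HasCompactSupport X' := hχc.smul_right
  have hXX : ∀ q ∈ Q, X' q = X q := by
    intro q hq
    simp only [hX']
    rw [hχ1 q (hB q hq), one_smul]
  have tX : ∀ q ∈ Q, X' q ∈ Tn r q := by
    intro q hq
    rw [hXX q hq, ← hr.mem_Tan hq]
    exact h.tangent q hq
  obtain ⟨φ, hφ⟩ := exists_flow_compact hX's hX'c
  obtain ⟨f, hf, hex⟩ := hL.exact
  have hLQ : ∀ z ∈ L, z.1 ∈ Q := fun z hz => (hL.sub hz).1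
  refine ⟨{
    n := n
    Q := Q
    UQ := UQ
    r := r
    hQ := hr
    cQ := hQ.compact
    dQ := dQ
    connQ := hQ.conn
    L := L
    UL := UL
    ρ := ρ
    hL := hρ
    cL := hL.closed.compact
    dL := dL
    conn := hL.closed.conn
    sub := hLQ
    sub2 := fun z hz => (hr.mem_Tan (hLQ z hz)).1 (hL.sub hz).2
    N := N
    hN := h.closed
    X := X'
    hX := hX's
    cX := hX'c
    tX := tX
    φ := φ
    hφ := hφ
    leaves := ?_
    meets := h.meets
    uniq := ?_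
    uniqN := h.sheet
    transverse := ?_
    imm := ?_
    f := f
    hf := hf
    exact := ?_ }, rfl, rfl⟩
  · intro q hq
    have hmem : ∀ t, φ t q ∈ Q := fun t => hr.flow_mem hX's hφ tX hq t
    refine h.leaves (fun t => φ t q) fun t => ⟨hmem t, ?_⟩
    rw [← hXX _ (hmem t)]
    exact hφ.deriv t q
  · intro z hz z' hz' h1 h2
    rw [hXX _ (hLQ z hz)] at h2
    by_cases hN : z.1 ∈ N
    · exact h.inj z hz z' hz' hN h1 h2
    · exact h.sheet z hz z' hz' hN h1
  · intro z hz hN v hv hv1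
    exact h.transverse z hz hN v ((hρ.mem_Tan hz).2 hv) hv1
  · intro z hz v hv hv1 hv2
    rw [hXX _ (hLQ z hz)] at hv2
    by_cases hN : z.1 ∈ N
    · exact h.imm z hz hN v ((hρ.mem_Tan hz).2 hv) hv1 hv2
    · exact h.transverse z hz hN v ((hρ.mem_Tan hz).2 hv) hv1
  · intro z hz v hv
    exact hex z hz v ((hρ.mem_Tan hz).2 hv)

theorem Setup.ham_isotopic (D : Setup E) : HamIsotopicToZero D.Q D.L := by
  obtain ⟨Λ⟩ := D.exists_leaf
  obtain ⟨A⟩ := Setup.exists_push Λ (H481.surj Λ)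
  obtain ⟨ι, f, hι, hf, hmem, hinj, himm, hex, h0, h1⟩ := H252.exact_isotopy A
  have hrev : ContDiff ℝ ∞ (fun x : ℝ × (E × E) => ((1 - x.1, x.2) : ℝ × (E × E))) :=
    (contDiff_const.sub contDiff_fst).prodMk contDiff_snd
  obtain ⟨H, φ, hH, hφ, hφι⟩ := H481.ham_ext D.hQ D.cQ D.hL D.cL
    (ι := fun x => ι (1 - x.1, x.2)) (hι.comp hrev) (fun s z hz => hmem (1 - s) z hz)
    (fun s z hz z' hz' h => hinj (1 - s) z hz z' hz' h)
    (fun s z hz v hv h => himm (1 - s) z hz v hv (by rw [← fderiv_reverse hι]; exact h))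
    (f := fun x => f (1 - x.1, x.2)) (hf.comp hrev)
    (fun s z hz v hv => by
      rw [fderiv_reverse hι, fderiv_reverse hf]
      exact hex (1 - s) z hz v hv)
  refine ⟨H, φ, hH, hφ, ?_⟩
  have hend : ∀ z ∈ D.L, φ 1 (ι (1, z)) = z := by
    intro z hz
    have h2 := hφι 1 ⟨zero_le_one, le_refl 1⟩ z hz
    simp only [sub_zero, sub_self] at h2
    rw [h2, h0 z hz]
  ext w
  constructor
  · rintro ⟨y, hy, rfl⟩
    obtain ⟨z, hz, rfl⟩ := (h1 y).1 hy
    rw [hend z hz]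
    exact hz
  · intro hw
    exact ⟨ι (1, w), (h1 _).2 ⟨w, hw, rfl⟩, hend w hw⟩

theorem main {n : ℕ} {Q : Set E} {L : Set (E × E)} {N : Set E} {X : E → E}
    (hQ : IsClosedManifold n Q) (hL : IsExactLagrangian n Q L) (h : IsOneMomentum Q L N X) :
    HamIsotopicToZero Q L := by
  obtain ⟨D, rfl, rfl⟩ := exists_setup hQ hL h
  exact D.ham_isotopic

end Vale.Agent.P220.R2.H57
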